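import Vale.Agent.P196.AM.Defs
import Mathlib

/-!
# [AM3] overlaps of the product vectors: `∑ ω, Psi z ω * Psi z' ω = Ov z z'`
-/

namespace Vale.Agent.P196.AM

open Real

section site

variable {Ctx : Type*} [Fintype Ctx] [DecidableEq Ctx]

theorem sum_amp (t t' : ℝ) : ∑ b : Bool, amp t b * amp t' b = Real.cos (t - t') := by
  simp [amp, Real.cos_sub]; ring

theorem sum_coh [Nonempty Ctx] (t t' : ℝ) :
    ∑ f : Ctx → Bool, coh t f * coh t' f = Real.cos (t - t') := by
  have hne : (fun _ : Ctx => true) ≠ (fun _ : Ctx => false) := by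
    intro h
    have := congrFun h (Classical.arbitrary Ctx)
    simp at this
  have hne' : (fun _ : Ctx => false) ≠ (fun _ : Ctx => true) := fun h => hne h.symm
  have key : ∀ f : Ctx → Bool, coh t f * coh t' f =
      ∑ b : Bool, if f = (fun _ => b) then amp t b * amp t' b else 0 := by
    intro f
    unfold coh
    by_cases h1 : f = (fun _ => true)
    · subst h1
      simp [hne]
    · by_cases h2 : f = (fun _ => false)
      · subst h2
        simp [hne']
      · simp [h1, h2]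
  simp_rw [key]
  rw [Finset.sum_comm]
  simp_rw [Finset.sum_ite_eq' Finset.univ, Finset.mem_univ, if_true]
  exact sum_amp t t'

theorem sum_prod_amp (t t' : ℝ) :
    ∑ f : Ctx → Bool, (∏ e, amp t (f e)) * (∏ e, amp t' (f e)) =
      Real.cos (t - t') ^ Fintype.card Ctx := by
  simp_rw [← Finset.prod_mul_distrib]
  rw [← Fintype.prod_sum (fun (_ : Ctx) (b : Bool) => amp t b * amp t' b)]
  simp_rw [sum_amp]
  simp

theorem sum_site [Nonempty Ctx] (t β t' β' : ℝ) :
    ∑ s : St Ctx, site t β s * site t' β' s = Kov (Fintype.card Ctx) t β t' β' := by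
  rw [Fintype.sum_prod_type]
  have : ∀ f : Ctx → Bool, ∑ b : Bool, site t β (f, b) * site t' β' (f, b) =
      Real.sin β * Real.sin β' * (coh t f * coh t' f) +
      Real.cos β * Real.cos β' * ((∏ e, amp t (f e)) * (∏ e, amp t' (f e))) := by
    intro f
    simp [site]
    ring
  simp_rw [this]
  rw [Finset.sum_add_distrib, ← Finset.mul_sum, ← Finset.mul_sum, sum_coh, sum_prod_amp]
  unfold Kov
  ring

/-- the site vectors are unit vectors -/
theorem sum_site_sq [Nonempty Ctx] (t β : ℝ) : ∑ s : St Ctx, site t β s ^ 2 = 1 := by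
  have := sum_site (Ctx := Ctx) t β t β
  simp_rw [← pow_two] at this
  rw [this]
  unfold Kov
  simp
  nlinarith [Real.sin_sq_add_cos_sq β]

end site

section Psi

variable {Ctx : Type*} [Fintype Ctx] [DecidableEq Ctx] {ι : Type*} [Fintype ι] [DecidableEq ι]

/-- factorised form of a sum over all configurations -/
theorem sum_prod_prod {M : ℕ} (F : Tor M → ι → St Ctx → ℝ) :
    ∑ ω : Om M ι Ctx, ∏ u, ∏ f, F u f (ω u f) = ∏ u, ∏ f, ∑ s : St Ctx, F u f s := by
  rw [← Fintype.prod_sum (fun (u : Tor M) (w : ι → St Ctx) => ∏ f, F u f (w f))]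
  refine Finset.prod_congr rfl fun u _ => ?_
  rw [← Fintype.prod_sum (fun (f : ι) (s : St Ctx) => F u f s)]

theorem sum_Psi [Nonempty Ctx] (P : Profile) {M : ℕ} (z z' : Fld M ι) :
    ∑ ω : Om M ι Ctx, Psi P z ω * Psi P z' ω = Ov P (Fintype.card Ctx) z z' := by
  unfold Psi Ov
  simp_rw [← Finset.prod_mul_distrib]
  rw [sum_prod_prod (fun u f s => psi P M u (z u f) s * psi P M u (z' u f) s)]
  refine Finset.prod_congr rfl fun u _ => Finset.prod_congr rfl fun f _ => ?_
  unfold psi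
  exact sum_site _ _ _ _

theorem sum_Psi_sq [Nonempty Ctx] (P : Profile) {M : ℕ} (z : Fld M ι) :
    ∑ ω : Om M ι Ctx, Psi P z ω ^ 2 = 1 := by
  unfold Psi
  simp_rw [← Finset.prod_pow]
  rw [sum_prod_prod (fun u f s => psi P M u (z u f) s ^ 2)]
  refine Finset.prod_eq_one fun u _ => Finset.prod_eq_one fun f _ => ?_
  unfold psi
  exact sum_site_sq _ _

/-- overlap of superpositions -/
theorem sum_superpose [Nonempty Ctx] (P : Profile) {M : ℕ} {A B : Type*} [Fintype A] [Fintype B]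
    (p : A → ℝ) (z : A → Fld M ι) (q : B → ℝ) (y : B → Fld M ι) :
    ∑ ω : Om M ι Ctx, (∑ a, p a * Psi P (z a) ω) * (∑ b, q b * Psi P (y b) ω) =
      ∑ a, ∑ b, p a * q b * Ov P (Fintype.card Ctx) (z a) (y b) := by
  simp_rw [← sum_Psi (Ctx := Ctx) P, Finset.sum_mul_sum, Finset.mul_sum]
  rw [Finset.sum_comm]
  refine Finset.sum_congr rfl fun a _ => ?_
  rw [Finset.sum_comm]
  refine Finset.sum_congr rfl fun b _ => Finset.sum_congr rfl fun ω _ => ?_
  ring

omit [DecidableEq ι] in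
theorem Ov_comm (P : Profile) (J : ℕ) {M : ℕ} (z z' : Fld M ι) : Ov P J z z' = Ov P J z' z := by
  unfold Ov Kov
  refine Finset.prod_congr rfl fun u _ => Finset.prod_congr rfl fun f _ => ?_
  rw [← Real.cos_neg (P.th (pos M u.1 (z u f 0)) - P.th (pos M u.1 (z' u f 0))), neg_sub]
  ring

omit [DecidableEq ι] in
theorem Ov_self (P : Profile) (J : ℕ) {M : ℕ} (z : Fld M ι) : Ov P J z z = 1 := by
  unfold Ov Kov
  refine Finset.prod_eq_one fun u _ => Finset.prod_eq_one fun f _ => ?_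
  simp only [sub_self, Real.cos_zero, one_pow, mul_one]
  nlinarith [Real.sin_sq_add_cos_sq (P.B (pos M u.1 (z u f 0)) (pos M u.2 (z u f 1)))]

end Psi

section almost

/-- almost invariance from the scalar product: `∑ (Ψ (hat w) - Ψ w)² ≤ 2 ε ∑ Ψ²` -/
theorem sum_sub_sq_le {Ω : Type*} [Fintype Ω] (Ψ : Ω → ℝ) (hat : Equiv.Perm Ω) {ε : ℝ}
    (h : (1 - ε) * ∑ w, Ψ w ^ 2 ≤ ∑ w, Ψ (hat w) * Ψ w) :
    ∑ w, (Ψ (hat w) - Ψ w) ^ 2 ≤ 2 * ε * ∑ w, Ψ w ^ 2 := by
  have h1 : ∑ w, Ψ (hat w) ^ 2 = ∑ w, Ψ w ^ 2 := Equiv.sum_comp hat (fun w => Ψ w ^ 2)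
  have h2 : ∑ w, (Ψ (hat w) - Ψ w) ^ 2 =
      ∑ w, Ψ (hat w) ^ 2 - 2 * ∑ w, Ψ (hat w) * Ψ w + ∑ w, Ψ w ^ 2 := by
    rw [Finset.mul_sum, ← Finset.sum_sub_distrib, ← Finset.sum_add_distrib]
    exact Finset.sum_congr rfl fun w _ => by ring
  rw [h2, h1]
  linarith

/-- the same with the inverse on the other side -/
theorem sum_mul_symm {Ω : Type*} [Fintype Ω] (Ψ : Ω → ℝ) (hat : Equiv.Perm Ω) :
    ∑ w, Ψ (hat.symm w) * Ψ w = ∑ w, Ψ (hat w) * Ψ w := by
  rw [← Equiv.sum_comp hat (fun w => Ψ (hat.symm w) * Ψ w)]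
  refine Finset.sum_congr rfl fun w _ => ?_
  simp [mul_comm]

end almost

section master

variable {Ctx : Type*} [Fintype Ctx] [DecidableEq Ctx] {ι : Type*} [Fintype ι] [DecidableEq ι]

/-- the superposition of product vectors -/
noncomputable def supP (P : Profile) {M : ℕ} {A : Type*} [Fintype A] (p : A → ℝ) (z : A → Fld M ι)
    (ω : Om M ι Ctx) : ℝ := ∑ a, p a * Psi P (z a) ω

/-- Gram form of two families -/
noncomputable def gram (P : Profile) (J : ℕ) {M : ℕ} {A : Type*} [Fintype A] (p : A → ℝ)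
    (z z' : A → Fld M ι) : ℝ := ∑ a, ∑ b, p a * p b * Ov P J (z a) (z' b)

theorem sum_supP_sq [Nonempty Ctx] (P : Profile) {M : ℕ} {A : Type*} [Fintype A] (p : A → ℝ)
    (z : A → Fld M ι) :
    ∑ ω : Om M ι Ctx, supP P p z ω ^ 2 = gram P (Fintype.card Ctx) p z z := by
  unfold supP gram
  rw [← sum_superpose (Ctx := Ctx) P p z p z]
  exact Finset.sum_congr rfl fun ω _ => pow_two _

theorem sum_supP_mul [Nonempty Ctx] (P : Profile) {M : ℕ} {A : Type*} [Fintype A] (p : A → ℝ)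
    (z z' : A → Fld M ι) :
    ∑ ω : Om M ι Ctx, supP P p z ω * supP P p z' ω = gram P (Fintype.card Ctx) p z z' := by
  unfold supP gram
  rw [← sum_superpose (Ctx := Ctx) P p z p z']

/-- almost invariance of the superposition, from the Gram forms -/
theorem supP_almost [Nonempty Ctx] (P : Profile) {M : ℕ} {A : Type*} [Fintype A] (p : A → ℝ)
    (z z' : A → Fld M ι) (hat : Equiv.Perm (Om M ι Ctx))
    (hhat : ∀ a ω, Psi P (z a) (hat ω) = Psi P (z' a) ω) {ε : ℝ}
    (h : (1 - ε) * gram P (Fintype.card Ctx) p z z ≤ gram P (Fintype.card Ctx) p z' z) :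
    ∑ ω : Om M ι Ctx, (supP P p z (hat ω) - supP P p z ω) ^ 2 ≤
      2 * ε * ∑ ω : Om M ι Ctx, supP P p z ω ^ 2 := by
  apply sum_sub_sq_le
  rw [sum_supP_sq]
  have : ∀ ω, supP P p z (hat ω) = supP P p z' ω := by
    intro ω
    unfold supP
    simp_rw [hhat]
  simp_rw [this]
  rw [sum_supP_mul]
  exact h

theorem exists_supP_ne_zero [Nonempty Ctx] (P : Profile) {M : ℕ} {A : Type*} [Fintype A] (p : A → ℝ)
    (z : A → Fld M ι) (h : 0 < gram P (Fintype.card Ctx) p z z) :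
    ∃ ω : Om M ι Ctx, supP P p z ω ≠ 0 := by
  by_contra hcon
  push Not at hcon
  rw [← sum_supP_sq (Ctx := Ctx)] at h
  simp [hcon] at h

omit [DecidableEq Ctx] [DecidableEq ι] in
/-- the support of a superposition is contained in the union of the supports -/
theorem exists_Psi_ne_zero (P : Profile) {M : ℕ} {A : Type*} [Fintype A] (p : A → ℝ)
    (z : A → Fld M ι) (ω : Om M ι Ctx) (h : supP P p z ω ≠ 0) : ∃ a, Psi P (z a) ω ≠ 0 := by
  obtain ⟨a, _, ha⟩ := Finset.exists_ne_zero_of_sum_ne_zero h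
  exact ⟨a, right_ne_zero_of_mul ha⟩

end master

end Vale.Agent.P196.AM
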